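import Vale.Agent.P123.Convex

/-!
Crouzeix's conjecture: the best constant is exactly `2`.
-/

namespace Vale.Agent.Results.P123.Crouzeix

universe u

/-- The numerical range `W(A) = {⟨Ax, x⟩ : ‖x‖ = 1}`.  Mathlib's `inner ℂ x y` is linear in the
second argument, so `⟨Ax, x⟩` (linear in the first argument) is `inner ℂ x (A x)`. -/
def numericalRange {H : Type u} [NormedAddCommGroup H] [InnerProductSpace ℂ H]
    (A : H →L[ℂ] H) : Set ℂ :=
  {z : ℂ | ∃ x : H, ‖x‖ = 1 ∧ inner ℂ x (A x) = z}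

theorem result :
    IsLeast {C : ℝ | ∀ (H : Type u) [NormedAddCommGroup H] [InnerProductSpace ℂ H]
        [CompleteSpace H] [Nontrivial H] (A : H →L[ℂ] H) (P : Polynomial ℂ),
        ‖Polynomial.aeval A P‖ ≤ C * sSup ((fun z : ℂ => ‖P.eval z‖) '' numericalRange A)} 2 := by
  constructor
  · intro H _ _ _ _ A P
    exact Vale.Agent.P123.crouzeix A P
  · intro C hC
    let H := EuclideanSpace ℂ (ULift.{u} (Fin 2))
    let e0 : H := EuclideanSpace.single ⟨0⟩ 1
    let e1 : H := EuclideanSpace.single ⟨1⟩ 1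
    let A : H →L[ℂ] H := (innerSL ℂ e1).smulRight e0
    have h := hC H A Polynomial.X
    have hA : ∀ x : H, A x = x ⟨1⟩ • e0 := by
      intro x
      simp [A, e1, H, EuclideanSpace.inner_single_left]
    have h1 : 1 ≤ ‖A‖ := by
      have := A.le_opNorm e1
      rw [hA] at this
      simpa [e0, e1, H] using this
    have h2 : sSup ((fun z : ℂ => ‖(Polynomial.X : Polynomial ℂ).eval z‖) '' numericalRange A)
        ≤ 1 / 2 := by
      refine Real.sSup_le ?_ (by norm_num)
      rintro _ ⟨_, ⟨x, hx, rfl⟩, rfl⟩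
      have h3 : ‖x ⟨0⟩‖ ^ 2 + ‖x ⟨1⟩‖ ^ 2 = 1 := by
        have h4 := EuclideanSpace.norm_sq_eq x
        rw [hx, ← Equiv.ulift.symm.sum_comp, Fin.sum_univ_two] at h4
        simpa using h4.symm
      rw [hA]
      simp only [Polynomial.eval_X, inner_smul_right, e0, H, EuclideanSpace.inner_single_right,
        norm_mul, RCLike.norm_conj, one_mul]
      nlinarith [sq_nonneg (‖x ⟨0⟩‖ - ‖x ⟨1⟩‖)]
    have h3 : 0 ≤ sSup ((fun z : ℂ => ‖(Polynomial.X : Polynomial ℂ).eval z‖) '' numericalRange A) := by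
      refine Real.sSup_nonneg ?_
      rintro _ ⟨_, -, rfl⟩
      exact norm_nonneg _
    rw [Polynomial.aeval_X] at h
    by_contra hlt
    push Not at hlt
    by_cases hC0 : 0 ≤ C
    · nlinarith [mul_le_mul_of_nonneg_left h2 hC0]
    · nlinarith [mul_nonneg (neg_nonneg.mpr (not_le.mp hC0).le) h3]

end Vale.Agent.Results.P123.Crouzeix
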